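import Vale.Agent.P058.Defs
import Vale.Agent.P058.FinDefs
import Vale.Agent.P058.TransDefs
import Mathlib.LinearAlgebra.AffineSpace.FiniteDimensional
import Mathlib.RingTheory.Algebraic.Basic

namespace Vale.Agent.P058

/-- The answer to the question: a finite nonempty set is Ramsey if and only if it has a balanced
profile with integer weights, and it is subtransitive if and only if it has one with positive
weights; subtransitive sets are Ramsey; finite spherical sets with algebraic distances are Ramsey;
sets of at most five points of a circle are Ramsey; some finite Ramsey set is not subtransitive,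
and some finite spherical set is not Ramsey. -/
def RamseyCharacterization : Prop :=
  (∀ (d : ℕ) (A : Set (EuclideanSpace ℝ (Fin d))), A.Finite → A.Nonempty →
      (IsRamsey A ↔ HasProfile (fun _ => True) A) ∧
      (IsSubtransitive A ↔ HasProfile (fun m => 0 < m) A) ∧
      (IsSubtransitive A → IsRamsey A) ∧
      (IsSpherical A → (∀ x ∈ A, ∀ y ∈ A, IsAlgebraic ℚ (dist x y)) → IsRamsey A)) ∧
    (∀ A : Set (EuclideanSpace ℝ (Fin 2)), A.Finite → A.Nonempty → A.ncard ≤ 5 →
      IsSpherical A → IsRamsey A) ∧
    (∃ A : Set (EuclideanSpace ℝ (Fin 2)), A.Finite ∧ A.Nonempty ∧ IsRamsey A ∧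
      ¬ IsSubtransitive A) ∧
    (∃ A : Set (EuclideanSpace ℝ (Fin 2)), A.Finite ∧ A.Nonempty ∧ IsSpherical A ∧
      ¬ IsRamsey A)

/-- the dimension of the affine span of `A` -/
noncomputable def affDim {d : ℕ} (A : Set (EuclideanSpace ℝ (Fin d))) : ℕ :=
  Module.finrank ℝ (vectorSpan ℝ A)

end Vale.Agent.P058
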