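import Vale.Agent.P058.H726.Rep

/-!
Extension of affine functionals from sets in general position.
-/

namespace Vale.Agent.P058.Skew

open Finset Module

/-- the pairs `(a, b)` whose affine functional `⟨a, ·⟩ + b` vanishes on `S` -/
def annih {d : ℕ} (S : Set (E d)) : Submodule ℝ (E d × ℝ) where
  carrier := {x | ∀ v ∈ S, inner ℝ x.1 v + x.2 = 0}
  add_mem' := by
    intro x y hx hy v hv
    have h1 := hx v hv
    have h2 := hy v hv
    simp only [Prod.fst_add, Prod.snd_add, inner_add_left]
    linarith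
  zero_mem' := by
    intro v _
    simp
  smul_mem' := by
    intro c x hx v hv
    have h1 := hx v hv
    simp only [Prod.smul_fst, Prod.smul_snd, real_inner_smul_left, smul_eq_mul]
    rw [← mul_add, h1, mul_zero]

lemma mem_annih {d : ℕ} {S : Set (E d)} {x : E d × ℝ} :
    x ∈ annih S ↔ ∀ v ∈ S, inner ℝ x.1 v + x.2 = 0 := Iff.rfl

lemma mem_orthogonal_vectorSpan {d : ℕ} {S : Set (E d)} {p : E d} (hp : p ∈ S) {a : E d} :
    a ∈ (vectorSpan ℝ S)ᗮ ↔ ∀ v ∈ S, (inner ℝ a v : ℝ) = inner ℝ a p := by
  rw [vectorSpan_eq_span_vsub_set_right ℝ hp, Submodule.mem_orthogonal']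
  constructor
  · intro h v hv
    have h1 := h (v -ᵥ p) (Submodule.subset_span ⟨v, hv, rfl⟩)
    rw [vsub_eq_sub, inner_sub_right] at h1
    linarith
  · intro h u hu
    induction hu using Submodule.span_induction with
    | mem x hx =>
      obtain ⟨v, hv, rfl⟩ := hx
      change (inner ℝ a (v - p) : ℝ) = 0
      rw [inner_sub_right, h v hv, sub_self]
    | zero => exact inner_zero_right _
    | add x y _ _ hx hy => rw [inner_add_right, hx, hy, add_zero]
    | smul c x _ hx => rw [real_inner_smul_right, hx, mul_zero]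

/-- the annihilator is the orthogonal complement of the direction space -/
noncomputable def annihEquiv {d : ℕ} {S : Set (E d)} {p : E d} (hp : p ∈ S) :
    (vectorSpan ℝ S)ᗮ ≃ₗ[ℝ] annih S where
  toFun a := ⟨((a : E d), -inner ℝ (a : E d) p), fun v hv => by
    have := (mem_orthogonal_vectorSpan hp).1 a.2 v hv
    simp only [this, add_neg_cancel]⟩
  map_add' a b := by
    apply Subtype.ext
    simp only [Submodule.coe_add, inner_add_left, Prod.mk_add_mk, neg_add]
  map_smul' c a := by
    apply Subtype.ext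
    simp only [Submodule.coe_smul, real_inner_smul_left, RingHom.id_apply, Prod.smul_mk,
      smul_eq_mul, mul_neg]
  invFun x := ⟨x.1.1, (mem_orthogonal_vectorSpan hp).2 fun v hv => by
    have h1 := x.2 v hv
    have h2 := x.2 p hp
    linarith⟩
  left_inv a := rfl
  right_inv x := by
    apply Subtype.ext
    apply Prod.ext
    · rfl
    · have h2 := x.2 p hp
      simp only
      linarith

lemma finrank_quot_annih {d : ℕ} {S : Set (E d)} (hS : S.Nonempty) :
    finrank ℝ ((E d × ℝ) ⧸ annih S) = finrank ℝ (vectorSpan ℝ S) + 1 := by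
  obtain ⟨p, hp⟩ := hS
  have h1 := Submodule.finrank_quotient_add_finrank (annih S)
  have h2 := Submodule.finrank_add_finrank_orthogonal (vectorSpan ℝ S)
  have h3 := (annihEquiv hp).finrank_eq
  have h4 : finrank ℝ (E d × ℝ) = finrank ℝ (E d) + 1 := by
    rw [Module.finrank_prod, Module.finrank_self]
  omega

/-- Sets in general position: affine functionals on the parts have a common extension. -/
theorem exists_ext {d k : ℕ} (A : Fin k → Set (E d)) (hne : ∀ i, (A i).Nonempty)
    (hU : (⋃ i, A i).Nonempty)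
    (hdim : finrank ℝ (vectorSpan ℝ (⋃ i, A i)) + 1 =
      ∑ i, (finrank ℝ (vectorSpan ℝ (A i)) + 1))
    (f : Fin k → E d → ℝ) (hf : ∀ i, AffOn (A i) (f i)) :
    ∃ F : E d → ℝ, AffOn Set.univ F ∧ ∀ i, ∀ v ∈ A i, F v = f i v := by
  let Ψ : (E d × ℝ) →ₗ[ℝ] (∀ i, (E d × ℝ) ⧸ annih (A i)) :=
    LinearMap.pi fun i => (annih (A i)).mkQ
  have hker : LinearMap.ker Ψ = annih (⋃ i, A i) := by
    ext x
    rw [LinearMap.mem_ker, mem_annih]
    constructor
    · intro h v hv
      obtain ⟨i, hi⟩ := Set.mem_iUnion.1 hv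
      have h1 : (annih (A i)).mkQ x = 0 := congrFun h i
      rw [Submodule.mkQ_apply, Submodule.Quotient.mk_eq_zero] at h1
      exact h1 v hi
    · intro h
      funext i
      change (annih (A i)).mkQ x = 0
      rw [Submodule.mkQ_apply, Submodule.Quotient.mk_eq_zero]
      exact fun v hv => h v (Set.mem_iUnion.2 ⟨i, hv⟩)
  have hsurj : Function.Surjective Ψ := by
    rw [← LinearMap.range_eq_top]
    apply Submodule.eq_top_of_finrank_eq
    have h1 := LinearMap.finrank_range_add_finrank_ker Ψ
    rw [hker] at h1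
    have h2 := Submodule.finrank_quotient_add_finrank (annih (⋃ i, A i))
    rw [finrank_quot_annih hU] at h2
    rw [Module.finrank_pi_fintype]
    rw [Finset.sum_congr rfl fun i _ => finrank_quot_annih (hne i), ← hdim]
    omega
  choose a b hab using hf
  obtain ⟨x, hx⟩ := hsurj fun i => (annih (A i)).mkQ (WithLp.toLp 2 (a i), b i)
  refine ⟨fun v => inner ℝ x.1 v + x.2, ⟨fun i => x.1 i, x.2, fun v _ => ?_⟩, fun i v hv => ?_⟩
  · beta_reduce
    rw [affv, PiLp.inner_apply]
    congr 1
    exact Finset.sum_congr rfl fun i _ => by simp [mul_comm]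
  · have h1 : (annih (A i)).mkQ x = (annih (A i)).mkQ (WithLp.toLp 2 (a i), b i) := congrFun hx i
    rw [← sub_eq_zero, ← map_sub, Submodule.mkQ_apply, Submodule.Quotient.mk_eq_zero] at h1
    have h2 := h1 v hv
    simp only [Prod.fst_sub, Prod.snd_sub, inner_sub_left] at h2
    rw [hab i v hv, affv]
    have h3 : (inner ℝ (WithLp.toLp 2 (a i) : E d) v : ℝ) = ∑ j, a i j * v j := by
      rw [PiLp.inner_apply]
      exact Finset.sum_congr rfl fun j _ => by simp [mul_comm]
    rw [h3] at h2
    linarith

end Vale.Agent.P058.Skew
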