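import Vale.Agent.P058.H726.Ext

/-!
Unions of Ramsey sets in general position.
-/

namespace Vale.Agent.P058.Skew

open Finset Module TensorProduct

/-- **Unions in general position.** -/
theorem isRamsey_iUnion {d k : ℕ} (A : Fin k → Set (E d)) (hfin : ∀ i, (A i).Finite)
    (hne : ∀ i, (A i).Nonempty)
    (hdim : finrank ℝ (vectorSpan ℝ (⋃ i, A i)) + 1 =
      ∑ i, (finrank ℝ (vectorSpan ℝ (A i)) + 1))
    (hR : ∀ i, IsRamsey (A i)) : IsRamsey (⋃ i, A i) := by
  classical
  have hU : (⋃ i, A i).Nonempty := by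
    rcases Nat.eq_zero_or_pos k with rfl | hk
    · simp at hdim
    · obtain ⟨v, hv⟩ := hne ⟨0, hk⟩
      exact ⟨v, Set.mem_iUnion.2 ⟨_, hv⟩⟩
  set U : Set (E d) := ⋃ i, A i with hUdef
  have ext := exists_ext A hne hU hdim
  -- single extension: `f` on `A i`, zero on the others
  have ext1 : ∀ (i : Fin k) (f : E d → ℝ), AffOn (A i) f → ∃ F : E d → ℝ, AffOn U F ∧
      (∀ v ∈ A i, F v = f v) ∧ ∀ l, l ≠ i → ∀ v ∈ A l, F v = 0 := by
    intro i f hf
    obtain ⟨F, ⟨a, b, hab⟩, h⟩ := ext (fun l => if l = i then f else fun _ => 0) (by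
      intro l
      by_cases hl : l = i
      · subst hl; simpa using hf
      · simpa [hl] using AffOn.const (U := A l) (0 : ℝ))
    refine ⟨F, ⟨a, b, fun v _ => hab v (Set.mem_univ v)⟩, fun v hv => ?_, fun l hl v hv => ?_⟩
    · rw [h i v hv, if_pos rfl]
    · rw [h l v hv, if_neg hl]
  -- the indicator of a part
  have hone : ∀ i : Fin k, ∃ F : E d → ℝ, AffOn U F ∧
      (∀ v ∈ A i, F v = 1) ∧ ∀ l, l ≠ i → ∀ v ∈ A l, F v = 0 := fun i =>
    ext1 i (fun _ => 1) (AffOn.const 1)
  choose e he he1 he0 using hone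
  -- the squared norm
  have hsq : ∀ i : Fin k, ∃ F : E d → ℝ, AffOn U F ∧
      (∀ v ∈ A i, F v = ‖v‖ ^ 2) ∧ ∀ l, l ≠ i → ∀ v ∈ A l, F v = 0 := fun i =>
    ext1 i (fun v => ‖v‖ ^ 2) (affOn_normSq (isSpherical_of_isRamsey (hfin i) (hne i) (hR i)))
  choose q hq hq1 hq0 using hsq
  -- coordinates
  have hX : ∀ (i : Fin k) (m : Fin d), ∃ F : E d → ℝ, AffOn U F ∧
      (∀ v ∈ A i, F v = v m) ∧ ∀ l, l ≠ i → ∀ v ∈ A l, F v = 0 := fun i m =>
    ext1 i (fun v => v m) (AffOn.coord m)
  choose X hX hX1 hX0 using hX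
  -- the profiles
  have hprof := fun i => (isRamsey_iff_tensor (hfin i) (hne i)).1 (hR i)
  choose K a a' b b' hp using hprof
  have hy : ∀ (i : Fin k) (j : Fin (K i)), ∃ F : E d → ℝ, AffOn U F ∧
      (∀ v ∈ A i, F v = affv (a i j) (b i j) v) ∧ ∀ l, l ≠ i → ∀ v ∈ A l, F v = 0 := fun i j =>
    ext1 i (affv (a i j) (b i j)) ⟨_, _, fun _ _ => rfl⟩
  choose y hy hy1 hy0 using hy
  have hy' : ∀ (i : Fin k) (j : Fin (K i)), ∃ F : E d → ℝ, AffOn U F ∧
      (∀ v ∈ A i, F v = affv (a' i j) (b' i j) v) ∧ ∀ l, l ≠ i → ∀ v ∈ A l, F v = 0 :=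
    fun i j => ext1 i (affv (a' i j) (b' i j)) ⟨_, _, fun _ _ => rfl⟩
  choose y' hy' hy1' hy0' using hy'
  choose p hpA using hne
  -- the pieces
  have R1 : Rep U (fun v => ∑ i, ∑ j, y i j v ⊗ₜ[ℚ] y' i j v)
      (fun v w => ∑ i, ∑ j, (y i j v - y i j w) * (y' i j v - y' i j w)) :=
    Rep.sum _ fun i _ => Rep.sum _ fun j _ => Rep.pair (hy i j) (hy' i j)
  have R2 : Rep U (fun v => ∑ i, ∑ j, (-y i j (p i) * e i v) ⊗ₜ[ℚ] (y' i j (p i) * e i v))
      (fun v w => ∑ i, ∑ j, (-y i j (p i) * e i v - -y i j (p i) * e i w) *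
        (y' i j (p i) * e i v - y' i j (p i) * e i w)) :=
    Rep.sum _ fun i _ => Rep.sum _ fun j _ => Rep.pair ((he i).smul _) ((he i).smul _)
  have R3 : Rep U (fun v => ∑ m : Fin d, v m ⊗ₜ[ℚ] v m)
      (fun v w => ∑ m : Fin d, (v m - w m) * (v m - w m)) :=
    Rep.sum _ fun m _ => Rep.pair (AffOn.coord m) (AffOn.coord m)
  have R4 : Rep U (fun v => ∑ i, ∑ m : Fin d, (-1 * X i m v) ⊗ₜ[ℚ] X i m v)
      (fun v w => ∑ i, ∑ m : Fin d, (-1 * X i m v - -1 * X i m w) * (X i m v - X i m w)) :=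
    Rep.sum _ fun i _ => Rep.sum _ fun m _ => Rep.pair ((hX i m).smul _) (hX i m)
  have R5 : Rep U (fun v => ∑ i, q i v ⊗ₜ[ℚ] (e i v + -1))
      (fun v w => ∑ i, (q i v - q i w) * ((e i v + -1) - (e i w + -1))) :=
    Rep.sum _ fun i _ => Rep.pair (hq i) ((he i).add (AffOn.const _))
  refine isRamsey_of_rep (Set.finite_iUnion hfin) hU ((((R1.add R2).add R3).add R4).add R5) ?_ ?_
  · -- the tensor part vanishes
    have key : ∀ v ∈ U, ((((∑ i, ∑ j, y i j v ⊗ₜ[ℚ] y' i j v) +
        (∑ i, ∑ j, (-y i j (p i) * e i v) ⊗ₜ[ℚ] (y' i j (p i) * e i v))) +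
        (∑ m : Fin d, v m ⊗ₜ[ℚ] v m)) + (∑ i, ∑ m : Fin d, (-1 * X i m v) ⊗ₜ[ℚ] X i m v)) +
        (∑ i, q i v ⊗ₜ[ℚ] (e i v + -1)) = 0 := by
      intro v hv
      obtain ⟨i, hi⟩ := Set.mem_iUnion.1 hv
      have s1 : ∑ l, ∑ j, y l j v ⊗ₜ[ℚ] y' l j v = ∑ j, y i j v ⊗ₜ[ℚ] y' i j v := by
        refine Finset.sum_eq_single i (fun l _ hl => ?_) (fun h => absurd (Finset.mem_univ i) h)
        exact Finset.sum_eq_zero fun j _ => by rw [hy0 l j i hl.symm v hi, TensorProduct.zero_tmul]
      have s2 : ∑ l, ∑ j, (-y l j (p l) * e l v) ⊗ₜ[ℚ] (y' l j (p l) * e l v) =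
          ∑ j, (-y i j (p i) * e i v) ⊗ₜ[ℚ] (y' i j (p i) * e i v) := by
        refine Finset.sum_eq_single i (fun l _ hl => ?_) (fun h => absurd (Finset.mem_univ i) h)
        exact Finset.sum_eq_zero fun j _ => by
          rw [he0 l i hl.symm v hi, mul_zero, TensorProduct.zero_tmul]
      have s4 : ∑ l, ∑ m : Fin d, (-1 * X l m v) ⊗ₜ[ℚ] X l m v =
          ∑ m : Fin d, (-1 * X i m v) ⊗ₜ[ℚ] X i m v := by
        refine Finset.sum_eq_single i (fun l _ hl => ?_) (fun h => absurd (Finset.mem_univ i) h)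
        exact Finset.sum_eq_zero fun m _ => by
          rw [hX0 l m i hl.symm v hi, mul_zero, TensorProduct.zero_tmul]
      have s5 : ∑ l, q l v ⊗ₜ[ℚ] (e l v + -1) = q i v ⊗ₜ[ℚ] (e i v + -1) := by
        refine Finset.sum_eq_single i (fun l _ hl => ?_) (fun h => absurd (Finset.mem_univ i) h)
        rw [hq0 l i hl.symm v hi, TensorProduct.zero_tmul]
      rw [s1, s2, s4, s5, he1 i v hi, add_neg_cancel, TensorProduct.tmul_zero, add_zero]
      have h1 : ∑ j, y i j v ⊗ₜ[ℚ] y' i j v = ∑ j, y i j (p i) ⊗ₜ[ℚ] y' i j (p i) := by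
        have := (hp i v hi (p i) (hpA i)).1
        simpa only [hy1 i _ v hi, hy1' i _ v hi, hy1 i _ _ (hpA i), hy1' i _ _ (hpA i)] using this
      have h2 : ∑ j, (-y i j (p i) * 1) ⊗ₜ[ℚ] (y' i j (p i) * 1) =
          -∑ j, y i j (p i) ⊗ₜ[ℚ] y' i j (p i) := by
        rw [← Finset.sum_neg_distrib]
        exact Finset.sum_congr rfl fun j _ => by rw [mul_one, mul_one, TensorProduct.neg_tmul]
      have h3 : ∑ m : Fin d, (-1 * X i m v) ⊗ₜ[ℚ] X i m v = -∑ m : Fin d, v m ⊗ₜ[ℚ] v m := by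
        rw [← Finset.sum_neg_distrib]
        exact Finset.sum_congr rfl fun m _ => by
          rw [hX1 i m v hi, neg_one_mul, TensorProduct.neg_tmul]
      rw [h1, h2, h3]
      abel
    intro v hv w hw
    exact (key v hv).trans (key w hw).symm
  · -- the difference form
    intro v hv w hw
    obtain ⟨i, hi⟩ := Set.mem_iUnion.1 hv
    obtain ⟨l, hl⟩ := Set.mem_iUnion.1 hw
    have hdist : dist v w ^ 2 = ∑ m : Fin d, (v m - w m) * (v m - w m) := by
      rw [EuclideanSpace.dist_eq, Real.sq_sqrt (Finset.sum_nonneg fun m _ => sq_nonneg _)]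
      exact Finset.sum_congr rfl fun m _ => by rw [Real.dist_eq, sq_abs, sq]
    have hnorm : ∀ u : E d, ‖u‖ ^ 2 = ∑ m : Fin d, u m * u m := by
      intro u
      rw [EuclideanSpace.norm_sq_eq]
      exact Finset.sum_congr rfl fun m _ => by rw [Real.norm_eq_abs, sq_abs, sq]
    by_cases hil : i = l
    · subst hil
      have s1 : ∑ l, ∑ j, (y l j v - y l j w) * (y' l j v - y' l j w) = dist v w ^ 2 := by
        rw [Finset.sum_eq_single i (fun l _ hl' => Finset.sum_eq_zero fun j _ => by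
          rw [hy0 l j i hl'.symm v hi, hy0 l j i hl'.symm w hl, sub_self, zero_mul])
          (fun h => absurd (Finset.mem_univ i) h)]
        have := (hp i v hi w hl).2
        simpa only [hy1 i _ v hi, hy1' i _ v hi, hy1 i _ w hl, hy1' i _ w hl] using this
      have s2 : ∑ l, ∑ j, (-y l j (p l) * e l v - -y l j (p l) * e l w) *
          (y' l j (p l) * e l v - y' l j (p l) * e l w) = 0 := by
        refine Finset.sum_eq_zero fun l _ => Finset.sum_eq_zero fun j _ => ?_
        have : e l v = e l w := by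
          by_cases hl' : l = i
          · subst hl'; rw [he1 l v hi, he1 l w hl]
          · rw [he0 l i (Ne.symm hl') v hi, he0 l i (Ne.symm hl') w hl]
        rw [this, sub_self, zero_mul]
      have s4 : ∑ l, ∑ m : Fin d, (-1 * X l m v - -1 * X l m w) * (X l m v - X l m w) =
          -∑ m : Fin d, (v m - w m) * (v m - w m) := by
        rw [Finset.sum_eq_single i (fun l _ hl' => Finset.sum_eq_zero fun m _ => by
          rw [hX0 l m i hl'.symm v hi, hX0 l m i hl'.symm w hl, sub_self, zero_mul])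
          (fun h => absurd (Finset.mem_univ i) h), ← Finset.sum_neg_distrib]
        exact Finset.sum_congr rfl fun m _ => by
          rw [hX1 i m v hi, hX1 i m w hl]; ring
      have s5 : ∑ l, (q l v - q l w) * ((e l v + -1) - (e l w + -1)) = 0 := by
        refine Finset.sum_eq_zero fun l _ => ?_
        have : e l v = e l w := by
          by_cases hl' : l = i
          · subst hl'; rw [he1 l v hi, he1 l w hl]
          · rw [he0 l i (Ne.symm hl') v hi, he0 l i (Ne.symm hl') w hl]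
        rw [this, sub_self, mul_zero]
      rw [s1, s2, s4, s5]
      ring
    · -- two different parts
      have hli : l ≠ i := Ne.symm hil
      have hT : ∀ (u : E d) (t : Fin k), u ∈ A t →
          ∑ j, y t j u * y' t j u = ∑ j, y t j (p t) * y' t j (p t) := by
        intro u t hu
        have h1 := congrArg mulRR ((hp t u hu (p t) (hpA t)).1)
        rw [map_sum, map_sum] at h1
        simpa only [mulRR_tmul, hy1 t _ u hu, hy1' t _ u hu, hy1 t _ _ (hpA t),
          hy1' t _ _ (hpA t)] using h1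
      have two : ∀ F : Fin k → ℝ, (∀ t, t ≠ i → t ≠ l → F t = 0) → ∑ t, F t = F i + F l := by
        intro F hF
        rw [← Finset.sum_pair hil]
        refine (Finset.sum_subset (Finset.subset_univ _) fun t _ ht => ?_).symm
        simp only [Finset.mem_insert, Finset.mem_singleton, not_or] at ht
        exact hF t ht.1 ht.2
      have s1 : ∑ t, ∑ j, (y t j v - y t j w) * (y' t j v - y' t j w) =
          (∑ j, y i j (p i) * y' i j (p i)) + ∑ j, y l j (p l) * y' l j (p l) := by
        rw [two _ fun t hti htl => Finset.sum_eq_zero fun j _ => by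
          rw [hy0 t j i hti.symm v hi, hy0 t j l htl.symm w hl, sub_self, zero_mul],
          ← hT v i hi, ← hT w l hl]
        congr 1
        · exact Finset.sum_congr rfl fun j _ => by
            rw [hy0 i j l hli w hl, hy0' i j l hli w hl]; ring
        · exact Finset.sum_congr rfl fun j _ => by
            rw [hy0 l j i hil v hi, hy0' l j i hil v hi]; ring
      have s2 : ∑ t, ∑ j, (-y t j (p t) * e t v - -y t j (p t) * e t w) *
          (y' t j (p t) * e t v - y' t j (p t) * e t w) =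
          -(∑ j, y i j (p i) * y' i j (p i)) + -∑ j, y l j (p l) * y' l j (p l) := by
        rw [two _ fun t hti htl => Finset.sum_eq_zero fun j _ => by
          rw [he0 t i hti.symm v hi, he0 t l htl.symm w hl, sub_self, zero_mul],
          ← Finset.sum_neg_distrib, ← Finset.sum_neg_distrib]
        congr 1
        · exact Finset.sum_congr rfl fun j _ => by
            rw [he0 i l hli w hl, he1 i v hi]; ring
        · exact Finset.sum_congr rfl fun j _ => by
            rw [he0 l i hil v hi, he1 l w hl]; ring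
      have s4 : ∑ t, ∑ m : Fin d, (-1 * X t m v - -1 * X t m w) * (X t m v - X t m w) =
          -(∑ m : Fin d, v m * v m) + -∑ m : Fin d, w m * w m := by
        rw [two _ fun t hti htl => Finset.sum_eq_zero fun m _ => by
          rw [hX0 t m i hti.symm v hi, hX0 t m l htl.symm w hl, sub_self, zero_mul],
          ← Finset.sum_neg_distrib, ← Finset.sum_neg_distrib]
        congr 1
        · exact Finset.sum_congr rfl fun m _ => by
            rw [hX0 i m l hli w hl, hX1 i m v hi]; ring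
        · exact Finset.sum_congr rfl fun m _ => by
            rw [hX0 l m i hil v hi, hX1 l m w hl]; ring
      have s5 : ∑ t, (q t v - q t w) * ((e t v + -1) - (e t w + -1)) =
          (∑ m : Fin d, v m * v m) + ∑ m : Fin d, w m * w m := by
        rw [two _ fun t hti htl => by
          rw [he0 t i hti.symm v hi, he0 t l htl.symm w hl, sub_self, mul_zero],
          hq1 i v hi, hq0 i l hli w hl, he1 i v hi, he0 i l hli w hl,
          hq1 l w hl, hq0 l i hil v hi, he1 l w hl, he0 l i hil v hi, hnorm, hnorm]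
        ring
      rw [s1, s2, s4, s5, hdist]
      ring

/-- **Unions in general position, both directions.** -/
theorem isRamsey_iUnion_iff {d k : ℕ} (A : Fin k → Set (E d)) (hfin : ∀ i, (A i).Finite)
    (hne : ∀ i, (A i).Nonempty)
    (hdim : finrank ℝ (vectorSpan ℝ (⋃ i, A i)) + 1 =
      ∑ i, (finrank ℝ (vectorSpan ℝ (A i)) + 1)) :
    IsRamsey (⋃ i, A i) ↔ ∀ i, IsRamsey (A i) :=
  ⟨fun h i => isRamsey_mono (Set.subset_iUnion A i) h, isRamsey_iUnion A hfin hne hdim⟩

end Vale.Agent.P058.Skew
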