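import Vale.Agent.P058.H726.Family

/-!
Unions of Ramsey sets whose affine spans have one common point.
-/

namespace Vale.Agent.P058.Skew

open Finset Module TensorProduct

/-- the linear part of `affv` -/
noncomputable def lin {d : ℕ} (a : Fin d → ℝ) : E d →ₗ[ℝ] ℝ where
  toFun x := ∑ i, a i * x i
  map_add' x y := by
    simp only [PiLp.add_apply, mul_add, Finset.sum_add_distrib]
  map_smul' c x := by
    simp only [PiLp.smul_apply, smul_eq_mul, RingHom.id_apply, Finset.mul_sum]
    exact Finset.sum_congr rfl fun i _ => by ring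

lemma affv_eq {d : ℕ} (a : Fin d → ℝ) (b : ℝ) (v : E d) : affv a b v = lin a v + b := rfl

lemma affv_add {d : ℕ} (a : Fin d → ℝ) (b : ℝ) (v x : E d) :
    affv a b (v + x) = affv a b v + lin a x := by
  rw [affv_eq, affv_eq, map_add]; ring

lemma affv_sub {d : ℕ} (a : Fin d → ℝ) (b : ℝ) (v w : E d) :
    affv a b v - affv a b w = lin a (v - w) := by
  rw [affv_eq, affv_eq, map_sub]; ring

/-- a linear functional vanishing on differences vanishes on the direction space -/
lemma eq_zero_of_sub {d : ℕ} {A : Set (E d)} {p : E d} (hp : p ∈ A) (L : E d →ₗ[ℝ] ℝ)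
    (h : ∀ v ∈ A, L (v - p) = 0) : ∀ x ∈ vectorSpan ℝ A, L x = 0 := by
  intro x hx
  rw [vectorSpan_eq_span_vsub_set_right ℝ hp] at hx
  induction hx using Submodule.span_induction with
  | mem x hx =>
    obtain ⟨v, hv, rfl⟩ := hx
    exact h v hv
  | zero => exact map_zero L
  | add x y _ _ hx hy => rw [map_add, hx, hy, add_zero]
  | smul c x _ hx => rw [map_smul, hx, smul_zero]

/-- the form of a profile is the squared norm on the direction space -/
lemma form_eq {d k : ℕ} {A : Set (E d)} {p : E d} (hp : p ∈ A) (a a' : Fin k → Fin d → ℝ)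
    (b b' : Fin k → ℝ)
    (h : ∀ v ∈ A, ∀ w ∈ A, ∑ j, (affv (a j) (b j) v - affv (a j) (b j) w) *
      (affv (a' j) (b' j) v - affv (a' j) (b' j) w) = dist v w ^ 2) :
    ∀ x ∈ vectorSpan ℝ A, ∑ j, lin (a j) x * lin (a' j) x = ‖x‖ ^ 2 := by
  have hQ : ∀ v ∈ A, ∀ w ∈ A, ∑ j, lin (a j) (v - w) * lin (a' j) (v - w) = ‖v - w‖ ^ 2 := by
    intro v hv w hw
    rw [← dist_eq_norm, ← h v hv w hw]
    exact Finset.sum_congr rfl fun j _ => by rw [affv_sub, affv_sub]
  -- the bilinear form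
  let B : E d → E d →ₗ[ℝ] ℝ := fun x =>
    (∑ j, (lin (a j) x • lin (a' j) + lin (a' j) x • lin (a j))) - (2 : ℝ) • innerₛₗ ℝ x
  have hB : ∀ x y, B x y = ∑ j, (lin (a j) x * lin (a' j) y + lin (a' j) x * lin (a j) y) -
      2 * inner ℝ x y := by
    intro x y
    simp only [B, LinearMap.sub_apply, LinearMap.sum_apply, LinearMap.add_apply,
      LinearMap.smul_apply, smul_eq_mul, innerₛₗ_apply_apply]
  have hsymm : ∀ x y, B x y = B y x := by
    intro x y
    rw [hB, hB, real_inner_comm]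
    congr 1
    exact Finset.sum_congr rfl fun j _ => by ring
  have h0 : ∀ v ∈ A, ∀ w ∈ A, B (v - p) (w - p) = 0 := by
    intro v hv w hw
    have h1 := hQ v hv w hw
    have h2 := hQ v hv p hp
    have h3 := hQ w hw p hp
    have e : v - w = (v - p) - (w - p) := by abel
    rw [e, @norm_sub_sq_real] at h1
    simp only [map_sub _ (v - p) (w - p)] at h1
    have e2 : ∑ j, (lin (a j) (v - p) - lin (a j) (w - p)) *
        (lin (a' j) (v - p) - lin (a' j) (w - p)) =
        ∑ j, lin (a j) (v - p) * lin (a' j) (v - p) + ∑ j, lin (a j) (w - p) * lin (a' j) (w - p) -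
        ∑ j, (lin (a j) (v - p) * lin (a' j) (w - p) + lin (a' j) (v - p) * lin (a j) (w - p)) := by
      rw [← Finset.sum_add_distrib, ← Finset.sum_sub_distrib]
      exact Finset.sum_congr rfl fun j _ => by ring
    rw [e2] at h1
    rw [hB]
    linarith
  have h1 : ∀ w ∈ A, ∀ x ∈ vectorSpan ℝ A, B (w - p) x = 0 := fun w hw =>
    eq_zero_of_sub hp (B (w - p)) fun v hv => h0 w hw v hv
  have h2 : ∀ x ∈ vectorSpan ℝ A, ∀ y ∈ vectorSpan ℝ A, B x y = 0 := fun x hx =>
    eq_zero_of_sub hp (B x) fun w hw => by rw [hsymm]; exact h1 w hw x hx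
  intro x hx
  have h3 := h2 x hx x hx
  rw [hB, real_inner_self_eq_norm_sq] at h3
  have e3 : ∑ j, (lin (a j) x * lin (a' j) x + lin (a' j) x * lin (a j) x) =
      2 * ∑ j, lin (a j) x * lin (a' j) x := by
    rw [Finset.mul_sum]
    exact Finset.sum_congr rfl fun j _ => by ring
  rw [e3] at h3
  linarith

/-- the difference form at two points of the affine span -/
lemma form_eq_dist {d k : ℕ} {A : Set (E d)} {p : E d} (hp : p ∈ A) (a a' : Fin k → Fin d → ℝ)
    (b b' : Fin k → ℝ)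
    (h : ∀ v ∈ A, ∀ w ∈ A, ∑ j, (affv (a j) (b j) v - affv (a j) (b j) w) *
      (affv (a' j) (b' j) v - affv (a' j) (b' j) w) = dist v w ^ 2)
    {v z : E d} (hv : v ∈ affineSpan ℝ A) (hz : z ∈ affineSpan ℝ A) :
    ∑ j, (affv (a j) (b j) v - affv (a j) (b j) z) *
      (affv (a' j) (b' j) v - affv (a' j) (b' j) z) = dist v z ^ 2 := by
  have hx : v - z ∈ vectorSpan ℝ A := by
    rw [← direction_affineSpan]
    exact AffineSubspace.vsub_mem_direction hv hz
  rw [dist_eq_norm, ← form_eq hp a a' b b' h _ hx]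
  exact Finset.sum_congr rfl fun j _ => by rw [affv_sub, affv_sub]

/-- the multiplied tensor part at a point of the affine span: the power of the point -/
lemma power_eq {d k : ℕ} {A : Set (E d)} {p : E d} (hp : p ∈ A) (a a' : Fin k → Fin d → ℝ)
    (b b' : Fin k → ℝ)
    (h : ∀ v ∈ A, ∀ w ∈ A, ∑ j, (affv (a j) (b j) v - affv (a j) (b j) w) *
      (affv (a' j) (b' j) v - affv (a' j) (b' j) w) = dist v w ^ 2)
    (hT : ∀ v ∈ A, ∑ j, affv (a j) (b j) v * affv (a' j) (b' j) v =
      ∑ j, affv (a j) (b j) p * affv (a' j) (b' j) p)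
    {w : E d} {ρ : ℝ} (hw : ∀ v ∈ A, dist v w = ρ) {z : E d} (hz : z ∈ affineSpan ℝ A) :
    ∑ j, affv (a j) (b j) z * affv (a' j) (b' j) z -
      ∑ j, affv (a j) (b j) p * affv (a' j) (b' j) p = dist z w ^ 2 - ρ ^ 2 := by
  have hQ := form_eq hp a a' b b' h
  -- expansion at `p + x`
  have hexp : ∀ x : E d, ∑ j, affv (a j) (b j) (p + x) * affv (a' j) (b' j) (p + x) =
      ∑ j, affv (a j) (b j) p * affv (a' j) (b' j) p +
      ∑ j, (affv (a' j) (b' j) p * lin (a j) x + affv (a j) (b j) p * lin (a' j) x) +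
      ∑ j, lin (a j) x * lin (a' j) x := by
    intro x
    rw [← Finset.sum_add_distrib, ← Finset.sum_add_distrib]
    exact Finset.sum_congr rfl fun j _ => by rw [affv_add, affv_add]; ring
  have hd : ∀ x : E d, dist (p + x) w ^ 2 = dist p w ^ 2 + 2 * inner ℝ (p - w) x + ‖x‖ ^ 2 := by
    intro x
    have e : p + x - w = (p - w) + x := by abel
    rw [dist_eq_norm, dist_eq_norm, e, @norm_add_sq_real]
  let L : E d →ₗ[ℝ] ℝ := (∑ j, (affv (a' j) (b' j) p • lin (a j) +
    affv (a j) (b j) p • lin (a' j))) - (2 : ℝ) • innerₛₗ ℝ (p - w)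
  have hL : ∀ x, L x = ∑ j, (affv (a' j) (b' j) p * lin (a j) x +
      affv (a j) (b j) p * lin (a' j) x) - 2 * inner ℝ (p - w) x := by
    intro x
    simp only [L, LinearMap.sub_apply, LinearMap.sum_apply, LinearMap.add_apply,
      LinearMap.smul_apply, smul_eq_mul, innerₛₗ_apply_apply]
  have hL0 : ∀ x ∈ vectorSpan ℝ A, L x = 0 := by
    refine eq_zero_of_sub hp L fun v hv => ?_
    have hx : v - p ∈ vectorSpan ℝ A := by
      rw [← direction_affineSpan]
      exact AffineSubspace.vsub_mem_direction (subset_affineSpan ℝ A hv)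
        (subset_affineSpan ℝ A hp)
    have h1 := hexp (v - p)
    have h2 := hd (v - p)
    rw [add_sub_cancel, hT v hv, hQ _ hx] at h1
    rw [add_sub_cancel, hw v hv, hw p hp] at h2
    rw [hL]
    linarith
  have hx : z - p ∈ vectorSpan ℝ A := by
    rw [← direction_affineSpan]
    exact AffineSubspace.vsub_mem_direction hz (subset_affineSpan ℝ A hp)
  have h1 := hexp (z - p)
  have h2 := hd (z - p)
  have h3 := hL0 _ hx
  rw [add_sub_cancel, hQ _ hx] at h1
  rw [add_sub_cancel, hw p hp] at h2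
  rw [hL] at h3
  linarith

/-- extension through a common point -/
theorem exists_ext_at {d k : ℕ} (A : Fin k → Set (E d)) (z : E d)
    (hz : ∀ i, z ∈ affineSpan ℝ (A i)) (hU : (⋃ i, A i).Nonempty)
    (hdim : finrank ℝ (vectorSpan ℝ (⋃ i, A i)) = ∑ i, finrank ℝ (vectorSpan ℝ (A i)))
    (a : Fin k → Fin d → ℝ) (b : Fin k → ℝ) (c : ℝ) (hc : ∀ i, affv (a i) (b i) z = c) :
    ∃ (a₀ : Fin d → ℝ) (b₀ : ℝ), ∀ i, ∀ v ∈ A i, affv a₀ b₀ v = affv (a i) (b i) v := by
  have hsub : ∀ i, ∀ v ∈ A i, v - z ∈ vectorSpan ℝ (A i) := by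
    intro i v hv
    rw [← direction_affineSpan]
    exact AffineSubspace.vsub_mem_direction (subset_affineSpan ℝ _ hv) (hz i)
  let Ψ : E d →ₗ[ℝ] (∀ i, E d ⧸ (vectorSpan ℝ (A i))ᗮ) :=
    LinearMap.pi fun i => ((vectorSpan ℝ (A i))ᗮ).mkQ
  have hker : LinearMap.ker Ψ = (vectorSpan ℝ (⋃ i, A i))ᗮ := by
    obtain ⟨p, hp⟩ := hU
    ext x
    rw [LinearMap.mem_ker]
    constructor
    · intro h
      have h1 : ∀ v ∈ ⋃ i, A i, (inner ℝ x v : ℝ) = inner ℝ x z := by
        intro v hv
        obtain ⟨i, hi⟩ := Set.mem_iUnion.1 hv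
        have h1 : ((vectorSpan ℝ (A i))ᗮ).mkQ x = 0 := congrFun h i
        rw [Submodule.mkQ_apply, Submodule.Quotient.mk_eq_zero, Submodule.mem_orthogonal'] at h1
        have h2 := h1 (v - z) (hsub i v hi)
        rw [inner_sub_right] at h2
        linarith
      exact (mem_orthogonal_vectorSpan hp).2 fun v hv => by rw [h1 v hv, h1 p hp]
    · intro h
      funext i
      change ((vectorSpan ℝ (A i))ᗮ).mkQ x = 0
      rw [Submodule.mkQ_apply, Submodule.Quotient.mk_eq_zero]
      exact Submodule.orthogonal_le (vectorSpan_mono ℝ (Set.subset_iUnion A i)) h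
  have hq : ∀ S : Submodule ℝ (E d), finrank ℝ (E d ⧸ Sᗮ) = finrank ℝ S := by
    intro S
    have h1 := Submodule.finrank_quotient_add_finrank Sᗮ
    have h2 := Submodule.finrank_add_finrank_orthogonal S
    omega
  have hsurj : Function.Surjective Ψ := by
    rw [← LinearMap.range_eq_top]
    apply Submodule.eq_top_of_finrank_eq
    have h1 := LinearMap.finrank_range_add_finrank_ker Ψ
    rw [hker] at h1
    have h2 := Submodule.finrank_add_finrank_orthogonal (vectorSpan ℝ (⋃ i, A i))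
    rw [Module.finrank_pi_fintype, Finset.sum_congr rfl fun i _ => hq _, ← hdim]
    omega
  obtain ⟨x, hx⟩ := hsurj fun i => ((vectorSpan ℝ (A i))ᗮ).mkQ (WithLp.toLp 2 (a i))
  have hlin : ∀ (a : Fin d → ℝ) (v : E d), (inner ℝ (WithLp.toLp 2 a : E d) v : ℝ) = lin a v := by
    intro a v
    rw [PiLp.inner_apply]
    exact Finset.sum_congr rfl fun j _ => by simp [mul_comm]
  refine ⟨fun i => x i, c - lin (fun i => x i) z, fun i v hv => ?_⟩
  have h1 : ((vectorSpan ℝ (A i))ᗮ).mkQ x = ((vectorSpan ℝ (A i))ᗮ).mkQ (WithLp.toLp 2 (a i)) :=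
    congrFun hx i
  rw [← sub_eq_zero, ← map_sub, Submodule.mkQ_apply, Submodule.Quotient.mk_eq_zero,
    Submodule.mem_orthogonal'] at h1
  have h2 := h1 (v - z) (hsub i v hv)
  have e1 : (inner ℝ x (v - z) : ℝ) = lin (fun i => x i) (v - z) := hlin (fun i => x i) (v - z)
  have e2 : (inner ℝ (WithLp.toLp 2 (a i) : E d) (v - z) : ℝ) = lin (a i) (v - z) :=
    hlin (a i) (v - z)
  rw [inner_sub_left, e1, e2, map_sub, map_sub] at h2
  have h3 := hc i
  rw [affv_eq] at h3
  rw [affv_eq, affv_eq]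
  linarith

/-- **Unions through a common point of the affine spans.** -/
theorem isRamsey_bouquet {d k : ℕ} (A : Fin k → Set (E d)) (hfin : ∀ i, (A i).Finite) (z : E d)
    (hz : ∀ i, z ∈ affineSpan ℝ (A i))
    (hdim : finrank ℝ (vectorSpan ℝ (⋃ i, A i)) = ∑ i, finrank ℝ (vectorSpan ℝ (A i)))
    (hR : ∀ i, IsRamsey (A i))
    (hcase : (∀ i, z ∈ A i) ∨
      ∃ (w : E d) (ρ : ℝ), (∀ i, ∀ v ∈ A i, dist v w = ρ) ∧ dist z w ≠ ρ) :
    IsRamsey (⋃ i, A i) := by
  classical
  rcases Nat.eq_zero_or_pos k with rfl | hk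
  · intro r hr
    exact ⟨1, le_rfl, fun c => ⟨fun _ => 0, by simp, ⟨0, by omega⟩, by simp⟩⟩
  have hne : ∀ i, (A i).Nonempty := fun i => (affineSpan_nonempty ℝ).1 ⟨z, hz i⟩
  have hU : (⋃ i, A i).Nonempty := by
    obtain ⟨v, hv⟩ := hne ⟨0, hk⟩
    exact ⟨v, Set.mem_iUnion.2 ⟨_, hv⟩⟩
  set U : Set (E d) := ⋃ i, A i with hUdef
  have ext := exists_ext_at A z hz hU hdim
  have ext1 : ∀ (i : Fin k) (a : Fin d → ℝ) (b : ℝ), ∃ F : E d → ℝ, AffOn U F ∧
      (∀ v ∈ A i, F v = affv a b v) ∧ ∀ l, l ≠ i → ∀ v ∈ A l, F v = affv a b z := by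
    intro i a b
    obtain ⟨a₀, b₀, h⟩ := ext (fun l => if l = i then a else 0)
      (fun l => if l = i then b else affv a b z) (affv a b z) (by
        intro l
        by_cases hl : l = i
        · rw [if_pos hl, if_pos hl]
        · rw [if_neg hl, if_neg hl]; simp [affv])
    refine ⟨affv a₀ b₀, ⟨a₀, b₀, fun v _ => rfl⟩, fun v hv => ?_, fun l hl v hv => ?_⟩
    · rw [h i v hv, if_pos rfl, if_pos rfl]
    · rw [h l v hv, if_neg hl, if_neg hl]; simp [affv]
  -- coordinates relative to `z`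
  have hX : ∀ (i : Fin k) (m : Fin d), ∃ F : E d → ℝ, AffOn U F ∧
      (∀ v ∈ A i, F v = v m - z m) ∧ ∀ l, l ≠ i → ∀ v ∈ A l, F v = 0 := by
    intro i m
    obtain ⟨F, h1, h2, h3⟩ := ext1 i (Pi.single m 1) (-z m)
    have e : ∀ v : E d, affv (Pi.single m 1) (-z m) v = v m - z m := by
      intro v
      simp [affv, Pi.single_apply, sub_eq_add_neg]
    exact ⟨F, h1, fun v hv => by rw [h2 v hv, e], fun l hl v hv => by rw [h3 l hl v hv, e, sub_self]⟩
  choose X hX hX1 hX0 using hX
  -- the profiles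
  have hprof := fun i => (isRamsey_iff_tensor (hfin i) (hne i)).1 (hR i)
  choose K a a' b b' hp using hprof
  choose y hy hy1 hy0 using fun (i : Fin k) (j : Fin (K i)) => ext1 i (a i j) (b i j)
  choose y' hy' hy1' hy0' using fun (i : Fin k) (j : Fin (K i)) => ext1 i (a' i j) (b' i j)
  choose p hpA using hne
  let t : Fin k → RR := fun i => ∑ j, affv (a i j) (b i j) z ⊗ₜ[ℚ] affv (a' i j) (b' i j) z
  let τ : Fin k → RR := fun i =>
    (∑ j, affv (a i j) (b i j) (p i) ⊗ₜ[ℚ] affv (a' i j) (b' i j) (p i)) - t i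
  -- the multipliers
  obtain ⟨s, P, hs1, hs2⟩ : ∃ (s : Fin k → RR) (P : RR), (∀ i, mulRR (s i) = 1) ∧
      ∀ i, s i * τ i = P := by
    rcases hcase with hzA | ⟨w, ρ, hw, hne'⟩
    · refine ⟨fun _ => 1, 0, fun _ => map_one _, fun i => ?_⟩
      rw [one_mul, sub_eq_zero]
      exact (hp i (p i) (hpA i) z (hzA i)).1
    · set κ : ℝ := ρ ^ 2 - dist z w ^ 2 with hκ
      have hκ0 : κ ≠ 0 := by
        intro h0
        apply hne'
        have h1 : dist z w ^ 2 = ρ ^ 2 := by linarith
        have hρ : 0 ≤ ρ := by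
          rw [← hw ⟨0, hk⟩ _ (hpA _)]; exact dist_nonneg
        exact (pow_left_inj₀ dist_nonneg hρ two_ne_zero).1 h1
      have hτ : ∀ i, mulRR (τ i) = κ := by
        intro i
        have h1 := power_eq (hpA i) (a i) (a' i) (b i) (b' i)
          (fun v hv w hw => (hp i v hv w hw).2) (fun v hv => by
            have := congrArg mulRR ((hp i v hv (p i) (hpA i)).1)
            simpa only [map_sum, mulRR_tmul] using this) (hw i) (hz i)
        simp only [τ, t, map_sub, map_sum, mulRR_tmul]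
        linarith
      refine ⟨fun i => ((κ⁻¹ ^ (k - 1)) ⊗ₜ[ℚ] (1 : ℝ)) * ∏ l ∈ Finset.univ.erase i, τ l,
        ((κ⁻¹ ^ (k - 1)) ⊗ₜ[ℚ] (1 : ℝ)) * ∏ l, τ l, fun i => ?_, fun i => ?_⟩
      · rw [map_mul, map_prod, mulRR_tmul, mul_one, Finset.prod_congr rfl fun l _ => hτ l,
          Finset.prod_const, Finset.card_erase_of_mem (Finset.mem_univ i), Finset.card_univ,
          Fintype.card_fin, ← mul_pow, inv_mul_cancel₀ hκ0, one_pow]
      · rw [mul_assoc, Finset.prod_erase_mul _ _ (Finset.mem_univ i)]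
  -- the pieces
  have R1 : Rep U (fun v => ∑ i, s i * ∑ j, y i j v ⊗ₜ[ℚ] y' i j v)
      (fun v w => ∑ i, mulRR (s i) * ∑ j, (y i j v - y i j w) * (y' i j v - y' i j w)) :=
    Rep.sum _ fun i _ => (Rep.sum _ fun j _ => Rep.pair (hy i j) (hy' i j)).mul (s i)
  have R3 : Rep U (fun v => ∑ m : Fin d, (v m + -z m) ⊗ₜ[ℚ] (v m + -z m))
      (fun v w => ∑ m : Fin d, ((v m + -z m) - (w m + -z m)) * ((v m + -z m) - (w m + -z m))) :=
    Rep.sum _ fun m _ => Rep.pair ((AffOn.coord m).add (AffOn.const _))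
      ((AffOn.coord m).add (AffOn.const _))
  have R4 : Rep U (fun v => ∑ i, ∑ m : Fin d, (-1 * X i m v) ⊗ₜ[ℚ] X i m v)
      (fun v w => ∑ i, ∑ m : Fin d, (-1 * X i m v - -1 * X i m w) * (X i m v - X i m w)) :=
    Rep.sum _ fun i _ => Rep.sum _ fun m _ => Rep.pair ((hX i m).smul _) (hX i m)
  refine isRamsey_of_rep (Set.finite_iUnion hfin) hU ((R1.add R3).add R4) ?_ ?_
  · have key : ∀ v ∈ U, (((∑ i, s i * ∑ j, y i j v ⊗ₜ[ℚ] y' i j v) +
        (∑ m : Fin d, (v m + -z m) ⊗ₜ[ℚ] (v m + -z m))) +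
        (∑ i, ∑ m : Fin d, (-1 * X i m v) ⊗ₜ[ℚ] X i m v)) = P + ∑ i, s i * t i := by
      intro v hv
      obtain ⟨i, hi⟩ := Set.mem_iUnion.1 hv
      have s1 : ∑ l, s l * ∑ j, y l j v ⊗ₜ[ℚ] y' l j v = P + ∑ l, s l * t l := by
        have e1 : ∀ l, s l * ∑ j, y l j v ⊗ₜ[ℚ] y' l j v =
            (if l = i then P else 0) + s l * t l := by
          intro l
          by_cases hl : l = i
          · subst hl
            rw [if_pos rfl, ← hs2 l, ← mul_add]
            congr 1
            have h1 := (hp l v hi (p l) (hpA l)).1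
            simp only [τ, sub_add_cancel]
            rw [← h1]
            exact Finset.sum_congr rfl fun j _ => by rw [hy1 l j v hi, hy1' l j v hi]
          · rw [if_neg hl, zero_add]
            congr 1
            exact Finset.sum_congr rfl fun j _ => by
              rw [hy0 l j i (Ne.symm hl) v hi, hy0' l j i (Ne.symm hl) v hi]
        rw [Finset.sum_congr rfl fun l _ => e1 l, Finset.sum_add_distrib, Finset.sum_ite_eq',
          if_pos (Finset.mem_univ i)]
      have s4 : ∑ l, ∑ m : Fin d, (-1 * X l m v) ⊗ₜ[ℚ] X l m v =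
          -∑ m : Fin d, (v m + -z m) ⊗ₜ[ℚ] (v m + -z m) := by
        rw [Finset.sum_eq_single i (fun l _ hl => Finset.sum_eq_zero fun m _ => by
          rw [hX0 l m i hl.symm v hi, mul_zero, TensorProduct.zero_tmul])
          (fun h => absurd (Finset.mem_univ i) h), ← Finset.sum_neg_distrib]
        exact Finset.sum_congr rfl fun m _ => by
          rw [hX1 i m v hi, neg_one_mul, TensorProduct.neg_tmul, sub_eq_add_neg]
      rw [s1, s4]
      abel
    intro v hv w hw
    exact (key v hv).trans (key w hw).symm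
  · intro v hv w hw
    obtain ⟨i, hi⟩ := Set.mem_iUnion.1 hv
    obtain ⟨l, hl⟩ := Set.mem_iUnion.1 hw
    have hdist : ∀ v w : E d, dist v w ^ 2 = ∑ m : Fin d, (v m - w m) * (v m - w m) := by
      intro v w
      rw [EuclideanSpace.dist_eq, Real.sq_sqrt (Finset.sum_nonneg fun m _ => sq_nonneg _)]
      exact Finset.sum_congr rfl fun m _ => by rw [Real.dist_eq, sq_abs, sq]
    have s3 : ∑ m : Fin d, ((v m + -z m) - (w m + -z m)) * ((v m + -z m) - (w m + -z m)) =
        dist v w ^ 2 := by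
      rw [hdist]
      exact Finset.sum_congr rfl fun m _ => by ring
    have hone : ∀ F : Fin k → ℝ, ∑ i, mulRR (s i) * F i = ∑ i, F i := fun F =>
      Finset.sum_congr rfl fun i _ => by rw [hs1 i, one_mul]
    rw [hone, s3]
    by_cases hil : i = l
    · subst hil
      have s1 : ∑ l, ∑ j, (y l j v - y l j w) * (y' l j v - y' l j w) = dist v w ^ 2 := by
        rw [Finset.sum_eq_single i (fun l _ hl' => Finset.sum_eq_zero fun j _ => by
          rw [hy0 l j i hl'.symm v hi, hy0 l j i hl'.symm w hl, sub_self, zero_mul])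
          (fun h => absurd (Finset.mem_univ i) h)]
        have := (hp i v hi w hl).2
        simpa only [hy1 i _ v hi, hy1' i _ v hi, hy1 i _ w hl, hy1' i _ w hl] using this
      have s4 : ∑ l, ∑ m : Fin d, (-1 * X l m v - -1 * X l m w) * (X l m v - X l m w) =
          -dist v w ^ 2 := by
        rw [Finset.sum_eq_single i (fun l _ hl' => Finset.sum_eq_zero fun m _ => by
          rw [hX0 l m i hl'.symm v hi, hX0 l m i hl'.symm w hl, sub_self, zero_mul])
          (fun h => absurd (Finset.mem_univ i) h), hdist, ← Finset.sum_neg_distrib]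
        exact Finset.sum_congr rfl fun m _ => by
          rw [hX1 i m v hi, hX1 i m w hl]; ring
      rw [s1, s4]
      ring
    · have hli : l ≠ i := Ne.symm hil
      have two : ∀ F : Fin k → ℝ, (∀ t, t ≠ i → t ≠ l → F t = 0) → ∑ t, F t = F i + F l := by
        intro F hF
        rw [← Finset.sum_pair hil]
        refine (Finset.sum_subset (Finset.subset_univ _) fun t _ ht => ?_).symm
        simp only [Finset.mem_insert, Finset.mem_singleton, not_or] at ht
        exact hF t ht.1 ht.2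
      have s1 : ∑ t, ∑ j, (y t j v - y t j w) * (y' t j v - y' t j w) =
          dist v z ^ 2 + dist w z ^ 2 := by
        rw [two _ fun t hti htl => Finset.sum_eq_zero fun j _ => by
          rw [hy0 t j i hti.symm v hi, hy0 t j l htl.symm w hl, sub_self, zero_mul],
          ← form_eq_dist (hpA i) (a i) (a' i) (b i) (b' i) (fun v hv w hw => (hp i v hv w hw).2)
            (subset_affineSpan ℝ _ hi) (hz i),
          ← form_eq_dist (hpA l) (a l) (a' l) (b l) (b' l) (fun v hv w hw => (hp l v hv w hw).2)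
            (subset_affineSpan ℝ _ hl) (hz l)]
        congr 1
        · exact Finset.sum_congr rfl fun j _ => by
            rw [hy0 i j l hli w hl, hy0' i j l hli w hl, hy1 i j v hi, hy1' i j v hi]
        · exact Finset.sum_congr rfl fun j _ => by
            rw [hy0 l j i hil v hi, hy0' l j i hil v hi, hy1 l j w hl, hy1' l j w hl]; ring
      have s4 : ∑ t, ∑ m : Fin d, (-1 * X t m v - -1 * X t m w) * (X t m v - X t m w) =
          -dist v z ^ 2 + -dist w z ^ 2 := by
        rw [two _ fun t hti htl => Finset.sum_eq_zero fun m _ => by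
          rw [hX0 t m i hti.symm v hi, hX0 t m l htl.symm w hl, sub_self, zero_mul],
          hdist, hdist, ← Finset.sum_neg_distrib, ← Finset.sum_neg_distrib]
        congr 1
        · exact Finset.sum_congr rfl fun m _ => by
            rw [hX0 i m l hli w hl, hX1 i m v hi]; ring
        · exact Finset.sum_congr rfl fun m _ => by
            rw [hX0 l m i hil v hi, hX1 l m w hl]; ring
      rw [s1, s4]
      ring

/-- Both directions. -/
theorem isRamsey_bouquet_iff {d k : ℕ} (A : Fin k → Set (E d)) (hfin : ∀ i, (A i).Finite)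
    (z : E d) (hz : ∀ i, z ∈ affineSpan ℝ (A i))
    (hdim : finrank ℝ (vectorSpan ℝ (⋃ i, A i)) = ∑ i, finrank ℝ (vectorSpan ℝ (A i)))
    (hcase : (∀ i, z ∈ A i) ∨
      ∃ (w : E d) (ρ : ℝ), (∀ i, ∀ v ∈ A i, dist v w = ρ) ∧ dist z w ≠ ρ) :
    IsRamsey (⋃ i, A i) ↔ ∀ i, IsRamsey (A i) :=
  ⟨fun h i => isRamsey_mono (Set.subset_iUnion A i) h,
    fun h => isRamsey_bouquet A hfin z hz hdim h hcase⟩

end Vale.Agent.P058.Skew
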