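import Vale.Agent.P058.H840.Interp
import Vale.Agent.P058.H987.SixC

/-!
Sums of products of affine functionals on a set `U`: the pairs (tensor part, difference form).
-/

namespace Vale.Agent.P058.Skew

open Finset TensorProduct

/-- `f` agrees on `U` with an affine functional. -/
def AffOn {n : ℕ} (U : Set (E n)) (f : E n → ℝ) : Prop :=
  ∃ (a : Fin n → ℝ) (b : ℝ), ∀ v ∈ U, f v = affv a b v

/-- `T` is `∑ y_j ⊗ y'_j` and `D` is `∑ (y_j v - y_j w) (y'_j v - y'_j w)` on `U`. -/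
def Rep {n : ℕ} (U : Set (E n)) (T : E n → RR) (D : E n → E n → ℝ) : Prop :=
  ∃ (k : ℕ) (y y' : Fin k → E n → ℝ), (∀ j, AffOn U (y j)) ∧ (∀ j, AffOn U (y' j)) ∧
    (∀ v ∈ U, T v = ∑ j, y j v ⊗ₜ[ℚ] y' j v) ∧
    (∀ v ∈ U, ∀ w ∈ U, D v w = ∑ j, (y j v - y j w) * (y' j v - y' j w))

variable {n : ℕ} {U : Set (E n)}

lemma AffOn.smul {f : E n → ℝ} (h : AffOn U f) (c : ℝ) : AffOn U (fun v => c * f v) := by
  obtain ⟨a, b, h⟩ := h
  refine ⟨fun i => c * a i, c * b, fun v hv => ?_⟩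
  simp only [h v hv, affv, mul_add, Finset.mul_sum, mul_assoc]

lemma AffOn.add {f g : E n → ℝ} (hf : AffOn U f) (hg : AffOn U g) :
    AffOn U (fun v => f v + g v) := by
  obtain ⟨a, b, hf⟩ := hf
  obtain ⟨a', b', hg⟩ := hg
  refine ⟨fun i => a i + a' i, b + b', fun v hv => ?_⟩
  simp only [hf v hv, hg v hv, affv, add_mul, Finset.sum_add_distrib]
  ring

lemma AffOn.const (c : ℝ) : AffOn U (fun _ => c) :=
  ⟨0, c, fun v _ => by simp [affv]⟩

lemma AffOn.coord (i : Fin n) : AffOn U (fun v => v i) :=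
  ⟨Pi.single i 1, 0, fun v _ => by simp [affv, Pi.single_apply]⟩

lemma AffOn.congr {f g : E n → ℝ} (hf : AffOn U f) (h : ∀ v ∈ U, g v = f v) : AffOn U g := by
  obtain ⟨a, b, hf⟩ := hf
  exact ⟨a, b, fun v hv => by rw [h v hv, hf v hv]⟩

lemma Rep.pair {f g : E n → ℝ} (hf : AffOn U f) (hg : AffOn U g) :
    Rep U (fun v => f v ⊗ₜ[ℚ] g v) (fun v w => (f v - f w) * (g v - g w)) :=
  ⟨1, fun _ => f, fun _ => g, fun _ => hf, fun _ => hg, fun v _ => by simp, fun v _ w _ => by simp⟩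

lemma Rep.zero : Rep U (fun _ => 0) (fun _ _ => 0) :=
  ⟨0, fun _ _ => 0, fun _ _ => 0, fun j => j.elim0, fun j => j.elim0, fun v _ => by simp,
    fun v _ w _ => by simp⟩

lemma Rep.congr {T T' : E n → RR} {D D' : E n → E n → ℝ} (h : Rep U T D)
    (hT : ∀ v ∈ U, T' v = T v) (hD : ∀ v ∈ U, ∀ w ∈ U, D' v w = D v w) : Rep U T' D' := by
  obtain ⟨k, y, y', h1, h2, h3, h4⟩ := h
  exact ⟨k, y, y', h1, h2, fun v hv => by rw [hT v hv, h3 v hv],
    fun v hv w hw => by rw [hD v hv w hw, h4 v hv w hw]⟩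

lemma Rep.add {T T' : E n → RR} {D D' : E n → E n → ℝ} (h : Rep U T D) (h' : Rep U T' D') :
    Rep U (fun v => T v + T' v) (fun v w => D v w + D' v w) := by
  obtain ⟨k, y, y', h1, h2, h3, h4⟩ := h
  obtain ⟨l, z, z', g1, g2, g3, g4⟩ := h'
  refine ⟨k + l, Fin.append y z, Fin.append y' z', ?_, ?_, ?_, ?_⟩
  · intro j
    refine Fin.addCases (fun i => ?_) (fun i => ?_) j
    · rw [Fin.append_left]; exact h1 i
    · rw [Fin.append_right]; exact g1 i
  · intro j
    refine Fin.addCases (fun i => ?_) (fun i => ?_) j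
    · rw [Fin.append_left]; exact h2 i
    · rw [Fin.append_right]; exact g2 i
  · intro v hv
    rw [Fin.sum_univ_add]
    simp only [Fin.append_left, Fin.append_right]
    rw [h3 v hv, g3 v hv]
  · intro v hv w hw
    rw [Fin.sum_univ_add]
    simp only [Fin.append_left, Fin.append_right]
    rw [h4 v hv w hw, g4 v hv w hw]

lemma Rep.sum {ι : Type*} (s : Finset ι) {T : ι → E n → RR} {D : ι → E n → E n → ℝ}
    (h : ∀ i ∈ s, Rep U (T i) (D i)) :
    Rep U (fun v => ∑ i ∈ s, T i v) (fun v w => ∑ i ∈ s, D i v w) := by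
  classical
  induction s using Finset.induction_on with
  | empty => simpa using Rep.zero
  | insert i s hi ih =>
    refine ((h i (Finset.mem_insert_self i s)).add
      (ih fun j hj => h j (Finset.mem_insert_of_mem hj))).congr ?_ ?_
    · intro v _
      rw [Finset.sum_insert hi]
    · intro v _ w _
      rw [Finset.sum_insert hi]

lemma Rep.mul (s : RR) {T : E n → RR} {D : E n → E n → ℝ} (h : Rep U T D) :
    Rep U (fun v => s * T v) (fun v w => mulRR s * D v w) := by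
  induction s using TensorProduct.induction_on with
  | zero =>
    refine Rep.zero.congr (fun v _ => by rw [zero_mul]) (fun v _ w _ => ?_)
    rw [map_zero, zero_mul]
  | tmul a b =>
    obtain ⟨k, y, y', h1, h2, h3, h4⟩ := h
    refine ⟨k, fun j v => a * y j v, fun j v => b * y' j v, fun j => (h1 j).smul a,
      fun j => (h2 j).smul b, fun v hv => ?_, fun v hv w hw => ?_⟩
    · beta_reduce
      rw [h3 v hv, Finset.mul_sum]
      simp only [Algebra.TensorProduct.tmul_mul_tmul]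
    · beta_reduce
      rw [h4 v hv w hw, Finset.mul_sum, mulRR_tmul]
      exact Finset.sum_congr rfl fun j _ => by ring
  | add x y hx hy =>
    refine (hx.add hy).congr (fun v _ => by rw [add_mul]) (fun v _ w _ => ?_)
    rw [map_add, add_mul]

/-- The criterion through `Rep`. -/
theorem isRamsey_of_rep (hU : U.Finite) (hne : U.Nonempty) {T : E n → RR} {D : E n → E n → ℝ}
    (h : Rep U T D) (hT : ∀ v ∈ U, ∀ w ∈ U, T v = T w)
    (hD : ∀ v ∈ U, ∀ w ∈ U, D v w = dist v w ^ 2) : IsRamsey U := by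
  obtain ⟨k, y, y', h1, h2, h3, h4⟩ := h
  choose a b hab using h1
  choose a' b' hab' using h2
  refine (isRamsey_iff_tensor hU hne).2 ⟨k, a, a', b, b', fun v hv w hw => ?_⟩
  simp only [← hab _ v hv, ← hab _ w hw, ← hab' _ v hv, ← hab' _ w hw]
  exact ⟨by rw [← h3 v hv, ← h3 w hw, hT v hv w hw], by rw [← h4 v hv w hw, hD v hv w hw]⟩

/-- A subset of a Ramsey set is Ramsey. -/
lemma isRamsey_mono {A B : Set (E n)} (hAB : A ⊆ B) (hB : IsRamsey B) : IsRamsey A := by
  intro r hr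
  obtain ⟨D, hD, h⟩ := hB r hr
  refine ⟨D, hD, fun c => ?_⟩
  obtain ⟨f, hf, i, hi⟩ := h c
  exact ⟨f, fun x hx y hy => hf x (hAB hx) y (hAB hy), i, fun x hx => hi x (hAB hx)⟩

/-- On a spherical set the squared norm is an affine functional. -/
lemma affOn_normSq {A : Set (E n)} (h : IsSpherical A) : AffOn A (fun v => ‖v‖ ^ 2) := by
  obtain ⟨z, ρ, h⟩ := h
  refine ⟨fun i => 2 * z i, ρ ^ 2 - ‖z‖ ^ 2, fun v hv => ?_⟩
  have h1 := h v hv
  have h2 : dist v z ^ 2 = ‖v‖ ^ 2 - 2 * inner ℝ v z + ‖z‖ ^ 2 := by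
    rw [dist_eq_norm, @norm_sub_sq_real]
  have h3 : (inner ℝ v z : ℝ) = ∑ i, z i * v i := by
    rw [PiLp.inner_apply]
    exact Finset.sum_congr rfl fun i _ => by simp
  rw [h1, h3] at h2
  simp only [affv, mul_assoc, ← Finset.mul_sum]
  linarith

end Vale.Agent.P058.Skew
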