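import Vale.Agent.P058.H726.Point
import Mathlib.Geometry.Euclidean.Sphere.Basic

/-!
Sharpness: a Ramsey set `A` on a circle and a pair `B = {z, b}` with `z` on the circle, such that
`A ∪ B` lies on a sphere and is not Ramsey.
-/

namespace Vale.Agent.P058.Skew

open Finset Module

/-- a point of the plane lifted to height `t` -/
def lift3 (t : ℝ) (v : E 2) : E 3 := WithLp.toLp 2 ![v 0, v 1, t]

/-- the embedding of the plane -/
def iota : E 2 →ₗ[ℝ] E 3 where
  toFun v := lift3 0 v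
  map_add' x y := by
    ext i
    fin_cases i <;> simp [lift3]
  map_smul' c x := by
    ext i
    fin_cases i <;> simp [lift3]

lemma iota_apply (v : E 2) : iota v = lift3 0 v := rfl

lemma dist_lift3 (s t : ℝ) (v w : E 2) :
    dist (lift3 s v) (lift3 t w) ^ 2 = dist v w ^ 2 + (s - t) ^ 2 := by
  have h : ∀ (n : ℕ) (x y : E n), dist x y ^ 2 = ∑ i, (x i - y i) ^ 2 := by
    intro n x y
    rw [EuclideanSpace.dist_eq, Real.sq_sqrt (Finset.sum_nonneg fun m _ => sq_nonneg _)]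
    exact Finset.sum_congr rfl fun m _ => by rw [Real.dist_eq, sq_abs]
  rw [h, h, Fin.sum_univ_three, Fin.sum_univ_two]
  simp [lift3]

lemma dist_iota (v w : E 2) : dist (iota v) (iota w) = dist v w := by
  have h := dist_lift3 0 0 v w
  rw [sub_self, zero_pow two_ne_zero, add_zero] at h
  exact (pow_left_inj₀ dist_nonneg dist_nonneg two_ne_zero).1 h

lemma iota_injective : Function.Injective iota := by
  intro v w h
  rw [← dist_eq_zero, ← dist_iota, h, dist_self]

lemma isRamsey_image_iff (A : Set (E 2)) : IsRamsey (iota '' A) ↔ IsRamsey A := by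
  constructor
  · intro h r hr
    obtain ⟨D, hD, h⟩ := h r hr
    refine ⟨D, hD, fun c => ?_⟩
    obtain ⟨f, hf, i, hi⟩ := h c
    exact ⟨fun x => f (iota x), fun x hx y hy => by
      rw [hf _ ⟨x, hx, rfl⟩ _ ⟨y, hy, rfl⟩, dist_iota], i, fun x hx => hi _ ⟨x, hx, rfl⟩⟩
  · intro h r hr
    obtain ⟨D, hD, h⟩ := h r hr
    refine ⟨D, hD, fun c => ?_⟩
    obtain ⟨f, hf, i, hi⟩ := h c
    refine ⟨fun x => f (Function.invFun iota x), ?_, i, ?_⟩
    · rintro _ ⟨x, hx, rfl⟩ _ ⟨y, hy, rfl⟩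
      beta_reduce
      rw [Function.leftInverse_invFun iota_injective x,
        Function.leftInverse_invFun iota_injective y, hf x hx y hy, dist_iota]
    · rintro _ ⟨x, hx, rfl⟩
      beta_reduce
      rw [Function.leftInverse_invFun iota_injective x]
      exact hi x hx

/-- A minimal spherical set of the plane which is not Ramsey. -/
lemma exists_minimal : ∃ S : Set (E 2), S.Finite ∧ IsSpherical S ∧ ¬ IsRamsey S ∧ 7 ≤ S.ncard ∧
    ∀ z ∈ S, IsRamsey (S \ {z}) := by
  classical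
  have hex : ∃ n : ℕ, ∃ S : Set (E 2), S.Finite ∧ S.Nonempty ∧ IsSpherical S ∧ ¬ IsRamsey S ∧
      S.ncard = n := by
    obtain ⟨S, h1, h2, h3, h4⟩ := exists_spherical_not_ramsey
    exact ⟨_, S, h1, h2, h3, h4, rfl⟩
  obtain ⟨S, h1, h2, h3, h4, h5⟩ := Nat.find_spec hex
  have h7 : 7 ≤ S.ncard := by
    by_contra hlt
    exact h4 ((isRamsey_iff_isSpherical_of_card_le_six h1 h2 (by omega)).2 h3)
  refine ⟨S, h1, h3, h4, h7, fun z hz => ?_⟩
  by_contra hno
  have hc : (S \ {z}).ncard + 1 = S.ncard := Set.ncard_sdiff_singleton_add_one hz h1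
  refine Nat.find_min hex (m := (S \ {z}).ncard) (by omega) ⟨S \ {z}, h1.sdiff, ?_, ?_, hno, rfl⟩
  · rw [Set.nonempty_iff_ne_empty]
    intro h0
    rw [h0, Set.ncard_empty] at hc
    omega
  · obtain ⟨w, ρ, h⟩ := h3
    exact ⟨w, ρ, fun x hx => h x hx.1⟩

/-- Three points of a circle span the plane. -/
lemma affineSpan_eq_top {A : Set (E 2)} (hA : A.Finite) (hS : IsSpherical A) (hc : 3 ≤ A.ncard) :
    affineSpan ℝ A = ⊤ := by
  classical
  obtain ⟨w, ρ, h⟩ := hS
  have hcos : EuclideanGeometry.Cospherical A := ⟨w, ρ, h⟩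
  obtain ⟨x, y, z, hx, hy, hz, hxy, hxz, hyz⟩ := (Set.two_lt_ncard_iff hA).1 (by omega)
  have hind : AffineIndependent ℝ ![x, y, z] :=
    hcos.affineIndependent_of_mem_of_ne hx hy hz hxy hxz hyz
  have h1 := (hind.affineSpan_eq_top_iff_card_eq_finrank_add_one).2 (by
    rw [Fintype.card_fin, finrank_euclideanSpace_fin])
  rw [eq_top_iff, ← h1]
  refine affineSpan_mono ℝ ?_
  rintro _ ⟨i, rfl⟩
  fin_cases i
  · exact hx
  · exact hy
  · exact hz

/-- **Sharpness of the condition on the common point.** -/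
theorem exists_not_ramsey : ∃ (A : Fin 2 → Set (E 3)) (z : E 3), (∀ i, (A i).Finite) ∧
    (∀ i, z ∈ affineSpan ℝ (A i)) ∧ z ∈ A 1 ∧
    finrank ℝ (vectorSpan ℝ (⋃ i, A i)) = ∑ i, finrank ℝ (vectorSpan ℝ (A i)) ∧
    (∀ i, IsRamsey (A i)) ∧ IsSpherical (⋃ i, A i) ∧ ¬ IsRamsey (⋃ i, A i) := by
  classical
  obtain ⟨S, hfin, ⟨w, ρ, hS⟩, hno, h7, hmin⟩ := exists_minimal
  obtain ⟨z₀, hz₀⟩ : S.Nonempty := by
    rw [Set.nonempty_iff_ne_empty]
    rintro rfl
    simp at h7
  have hc : (S \ {z₀}).ncard + 1 = S.ncard := Set.ncard_sdiff_singleton_add_one hz₀ hfin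
  have hS' : IsSpherical (S \ {z₀}) := ⟨w, ρ, fun x hx => hS x hx.1⟩
  have htop := affineSpan_eq_top hfin.sdiff hS' (by omega)
  have hUn : ∀ (A B : Set (E 3)), (⋃ i, (![A, B] : Fin 2 → Set (E 3)) i) = A ∪ B := by
    intro A B
    ext x
    simp [Fin.exists_fin_two]
  have hz1 : iota z₀ ∈ affineSpan ℝ (iota '' (S \ {z₀})) := by
    have h1 : affineSpan ℝ (iota '' (S \ {z₀})) =
        (affineSpan ℝ (S \ {z₀})).map iota.toAffineMap := by
      rw [AffineSubspace.map_span]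
      rfl
    rw [h1, htop]
    exact ⟨z₀, AffineSubspace.mem_top ℝ _ z₀, rfl⟩
  have hz2 : iota z₀ ∈ affineSpan ℝ ({iota z₀, lift3 1 z₀} : Set (E 3)) :=
    subset_affineSpan ℝ _ (by simp)
  have hsph : ∀ x ∈ iota '' (S \ {z₀}) ∪ {iota z₀, lift3 1 z₀},
      dist x (lift3 (1 / 2) w) = Real.sqrt (ρ ^ 2 + 1 / 4) := by
    have key : ∀ (t : ℝ) (v : E 2), v ∈ S → (t - 1 / 2) ^ 2 = 1 / 4 →
        dist (lift3 t v) (lift3 (1 / 2) w) = Real.sqrt (ρ ^ 2 + 1 / 4) := by
      intro t v hv ht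
      rw [← Real.sqrt_sq (dist_nonneg (x := lift3 t v)), dist_lift3, hS v hv, ht]
    rintro x (⟨v, hv, rfl⟩ | hx)
    · exact key 0 v hv.1 (by norm_num)
    · rcases hx with rfl | hx
      · exact key 0 z₀ hz₀ (by norm_num)
      · rw [Set.mem_singleton_iff.1 hx]
        exact key 1 z₀ hz₀ (by norm_num)
  refine ⟨![iota '' (S \ {z₀}), {iota z₀, lift3 1 z₀}], iota z₀, ?_, ?_, ?_, ?_, ?_, ?_, ?_⟩
  · intro i
    fin_cases i
    · exact hfin.sdiff.image _
    · exact (Set.toFinite {iota z₀, lift3 1 z₀} : ({iota z₀, lift3 1 z₀} : Set (E 3)).Finite)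
  · intro i
    fin_cases i
    · exact hz1
    · exact hz2
  · simp
  · rw [hUn, Fin.sum_univ_two]
    change finrank ℝ (vectorSpan ℝ (iota '' (S \ {z₀}) ∪ {iota z₀, lift3 1 z₀})) =
      finrank ℝ (vectorSpan ℝ (iota '' (S \ {z₀}))) +
        finrank ℝ (vectorSpan ℝ ({iota z₀, lift3 1 z₀} : Set (E 3)))
    set V := vectorSpan ℝ (iota '' (S \ {z₀})) with hV
    set W := vectorSpan ℝ ({iota z₀, lift3 1 z₀} : Set (E 3)) with hW
    have h1 : vectorSpan ℝ (iota '' (S \ {z₀}) ∪ {iota z₀, lift3 1 z₀}) = V ⊔ W := by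
      rw [← direction_affineSpan, AffineSubspace.span_union,
        AffineSubspace.direction_sup_eq_sup_direction hz1 hz2, direction_affineSpan,
        direction_affineSpan]
    have h2 : V ⊓ W = ⊥ := by
      rw [Submodule.eq_bot_iff]
      rintro x ⟨hxV, hxW⟩
      have hxW' : x ∈ W := hxW
      -- third coordinate
      let L : E 3 →ₗ[ℝ] ℝ := lin (Pi.single 2 1)
      have hL : ∀ x : E 3, L x = x 2 := by
        intro x
        change ∑ i, (Pi.single 2 1 : Fin 3 → ℝ) i * x i = x 2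
        simp [Pi.single_apply]
      have hLV : L x = 0 := by
        obtain ⟨v₀, hv₀⟩ : (S \ {z₀}).Nonempty := by
          rw [Set.nonempty_iff_ne_empty]
          intro h0
          rw [h0, Set.ncard_empty] at hc
          omega
        refine eq_zero_of_sub (p := iota v₀) (Set.mem_image_of_mem _ hv₀) L ?_ x hxV
        rintro _ ⟨v, hv, rfl⟩
        rw [← map_sub, hL]
        simp [iota_apply, lift3]
      rw [hW, vectorSpan_pair_rev, Submodule.mem_span_singleton] at hxW'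
      obtain ⟨c, rfl⟩ := hxW'
      rw [map_smul, hL] at hLV
      have : c = 0 := by
        simpa [iota_apply, lift3] using hLV
      rw [this, zero_smul]
    have h3 := Submodule.finrank_sup_add_finrank_inf_eq V W
    rw [h2, finrank_bot, add_zero] at h3
    rw [h1, h3]
  · intro i
    fin_cases i
    · exact (isRamsey_image_iff _).2 (hmin z₀ hz₀)
    · have h2 : ({iota z₀, lift3 1 z₀} : Set (E 3)).ncard ≤ 6 :=
        (Set.ncard_insert_le _ _).trans (by rw [Set.ncard_singleton]; norm_num)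
      exact (isRamsey_iff_isSpherical_of_card_le_six (Set.toFinite _) (Set.insert_nonempty _ _)
        h2).2 ⟨lift3 (1 / 2) w, Real.sqrt (ρ ^ 2 + 1 / 4), fun x hx => hsph x (Or.inr hx)⟩
  · rw [hUn]
    exact ⟨_, _, hsph⟩
  · rw [hUn]
    intro h
    apply hno
    rw [← isRamsey_image_iff]
    refine isRamsey_mono ?_ h
    rintro _ ⟨v, hv, rfl⟩
    by_cases hvz : v = z₀
    · subst hvz
      exact Or.inr (by simp)
    · exact Or.inl ⟨v, ⟨hv, hvz⟩, rfl⟩

end Vale.Agent.P058.Skew
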